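import Mathlib

/-!
# P064, job J4a: copies of a parent-function graph in the complete graph

Copies of the graph of a parent function `p : Fin n → Option (Fin n)` in `K_n` inject into the
parent functions with the same profile (number of non-roots, number of roots with children,
product of factorials of the numbers of children).
-/

namespace Vale.Agent.Lib.P064

open SimpleGraph Finset

/-- Conjugate of a parent function by a permutation of the vertices. -/
def conjPar {n : ℕ} (σ : Fin n ≃ Fin n) (p : Fin n → Option (Fin n)) :
    Fin n → Option (Fin n) :=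
  fun z => (p (σ.symm z)).map σ

theorem conjPar_apply {n : ℕ} (σ : Fin n ≃ Fin n) (p : Fin n → Option (Fin n)) (x : Fin n) :
    conjPar σ p (σ x) = (p x).map σ := by
  simp [conjPar]

theorem conjPar_eq_some {n : ℕ} (σ : Fin n ≃ Fin n) (p : Fin n → Option (Fin n))
    (x y : Fin n) : conjPar σ p (σ x) = some (σ y) ↔ p x = some y := by
  rw [conjPar_apply]
  cases h : p x with
  | none => simp
  | some z => simp

theorem conjPar_eq_none {n : ℕ} (σ : Fin n ≃ Fin n) (p : Fin n → Option (Fin n))
    (x : Fin n) : conjPar σ p (σ x) = none ↔ p x = none := by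
  rw [conjPar_apply]
  simp

/-- The conjugate of a parent function has the same profile. -/
theorem conjPar_mem_class {n : ℕ} (σ : Fin n ≃ Fin n) (p : Fin n → Option (Fin n)) :
    (Finset.univ.filter (fun x => conjPar σ p x ≠ none)).card =
        (Finset.univ.filter (fun x => p x ≠ none)).card ∧
      (Finset.univ.filter (fun y => conjPar σ p y = none ∧ ∃ x, conjPar σ p x = some y)).card =
        (Finset.univ.filter (fun y => p y = none ∧ ∃ x, p x = some y)).card ∧
      ∏ y, ((Finset.univ.filter (fun x => conjPar σ p x = some y)).card.factorial) =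
        ∏ y, ((Finset.univ.filter (fun x => p x = some y)).card.factorial) := by
  refine ⟨?_, ?_, ?_⟩
  · symm
    apply Finset.card_equiv σ
    intro x
    simp only [mem_filter, mem_univ, true_and, ne_eq]
    rw [conjPar_eq_none]
  · symm
    apply Finset.card_equiv σ
    intro y
    simp only [mem_filter, mem_univ, true_and]
    rw [conjPar_eq_none]
    constructor
    · rintro ⟨h1, x, hx⟩
      exact ⟨h1, σ x, (conjPar_eq_some σ p x y).2 hx⟩
    · rintro ⟨h1, x', hx'⟩
      refine ⟨h1, σ.symm x', ?_⟩
      rw [← conjPar_eq_some σ p, σ.apply_symm_apply]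
      exact hx'
  · symm
    apply Fintype.prod_equiv σ
    intro y
    congr 1
    apply Finset.card_equiv σ
    intro x
    simp only [mem_filter, mem_univ, true_and]
    rw [conjPar_eq_some]

/-- Adjacency in the graph of the conjugate parent function. -/
theorem adj_iff_conjPar {n : ℕ} (σ : Fin n ≃ Fin n) (p : Fin n → Option (Fin n))
    (a b : Fin n) :
    (SimpleGraph.fromRel (fun x y => p x = some y)).Adj (σ.symm a) (σ.symm b) ↔
      a ≠ b ∧ (conjPar σ p a = some b ∨ conjPar σ p b = some a) := by
  rw [SimpleGraph.fromRel_adj]
  have h1 : conjPar σ p a = some b ↔ p (σ.symm a) = some (σ.symm b) := by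
    rw [← conjPar_eq_some σ p, σ.apply_symm_apply, σ.apply_symm_apply]
  have h2 : conjPar σ p b = some a ↔ p (σ.symm b) = some (σ.symm a) := by
    rw [← conjPar_eq_some σ p, σ.apply_symm_apply, σ.apply_symm_apply]
  rw [h1, h2]
  simp

/-- Copies are counted by the subgraphs isomorphic to the pattern. -/
theorem copyCount_eq_natCard_subgraph {V W : Type*} [Fintype V] (G : SimpleGraph V)
    (F : SimpleGraph W) :
    G.copyCount F = Nat.card {S : G.Subgraph // Nonempty (F ≃g S.coe)} := by
  classical
  rw [copyCount, Nat.card_eq_fintype_card, Fintype.card_subtype]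

theorem copyCount_fromRel_le_ncard_class {n : ℕ} (p : Fin n → Option (Fin n)) :
    (⊤ : SimpleGraph (Fin n)).copyCount (SimpleGraph.fromRel (fun x y => p x = some y)) ≤
      {g : Fin n → Option (Fin n) |
        (Finset.univ.filter (fun x => g x ≠ none)).card =
          (Finset.univ.filter (fun x => p x ≠ none)).card ∧
        (Finset.univ.filter (fun y => g y = none ∧ ∃ x, g x = some y)).card =
          (Finset.univ.filter (fun y => p y = none ∧ ∃ x, p x = some y)).card ∧
        ∏ y, ((Finset.univ.filter (fun x => g x = some y)).card.factorial) =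
          ∏ y, ((Finset.univ.filter (fun x => p x = some y)).card.factorial)}.ncard := by
  classical
  set U : SimpleGraph (Fin n) := SimpleGraph.fromRel (fun x y => p x = some y) with hU
  rw [copyCount_eq_natCard_subgraph, ← Nat.card_coe_set_eq]
  -- every copy is the image of `U` under a permutation
  have hσ : ∀ S : {S : (⊤ : SimpleGraph (Fin n)).Subgraph // Nonempty (U ≃g S.coe)},
      ∃ σ : Fin n ≃ Fin n, (∀ a b, S.1.Adj a b ↔ U.Adj (σ.symm a) (σ.symm b)) ∧
        S.1.verts = Set.univ := by
    rintro ⟨S, ⟨f⟩⟩
    have hinj : Function.Injective (fun x => ((f x : S.verts) : Fin n)) := by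
      intro x y h
      exact f.injective (Subtype.ext h)
    refine ⟨Equiv.ofBijective _ ⟨hinj, Finite.injective_iff_surjective.1 hinj⟩, ?_, ?_⟩
    · intro a b
      obtain ⟨x, rfl⟩ := (Finite.injective_iff_surjective.1 hinj) a
      obtain ⟨y, rfl⟩ := (Finite.injective_iff_surjective.1 hinj) b
      have e1 : (Equiv.ofBijective _ ⟨hinj, Finite.injective_iff_surjective.1 hinj⟩).symm
          ((f x : S.verts) : Fin n) = x := by
        apply (Equiv.ofBijective _ ⟨hinj, Finite.injective_iff_surjective.1 hinj⟩).injective
        rw [Equiv.apply_symm_apply]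
        rfl
      have e2 : (Equiv.ofBijective _ ⟨hinj, Finite.injective_iff_surjective.1 hinj⟩).symm
          ((f y : S.verts) : Fin n) = y := by
        apply (Equiv.ofBijective _ ⟨hinj, Finite.injective_iff_surjective.1 hinj⟩).injective
        rw [Equiv.apply_symm_apply]
        rfl
      simp only []
      rw [e1, e2]
      have h3 : S.coe.Adj (f x) (f y) ↔ U.Adj x y := f.map_rel_iff
      exact h3
    · exact (set_fintype_card_eq_univ_iff _).1 (Fintype.card_congr f.toEquiv.symm)
  choose σ hσ using hσ
  let Φ : {S : (⊤ : SimpleGraph (Fin n)).Subgraph // Nonempty (U ≃g S.coe)} →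
      ↥{g : Fin n → Option (Fin n) |
        (Finset.univ.filter (fun x => g x ≠ none)).card =
          (Finset.univ.filter (fun x => p x ≠ none)).card ∧
        (Finset.univ.filter (fun y => g y = none ∧ ∃ x, g x = some y)).card =
          (Finset.univ.filter (fun y => p y = none ∧ ∃ x, p x = some y)).card ∧
        ∏ y, ((Finset.univ.filter (fun x => g x = some y)).card.factorial) =
          ∏ y, ((Finset.univ.filter (fun x => p x = some y)).card.factorial)} :=
    fun S => ⟨conjPar (σ S) p, conjPar_mem_class (σ S) p⟩
  have hΦ : Function.Injective Φ := by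
    intro S S' h
    have h1 : conjPar (σ S) p = conjPar (σ S') p := congrArg Subtype.val h
    apply Subtype.ext
    apply Subgraph.ext
    · rw [(hσ S).2, (hσ S').2]
    · ext a b
      rw [(hσ S).1, (hσ S').1, hU, adj_iff_conjPar, adj_iff_conjPar, h1]
  exact Nat.card_le_card_of_injective Φ hΦ

end Vale.Agent.Lib.P064
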