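import Mathlib
import Vale.Agent.KK.PP.Defs
import Vale.Agent.KK.Orbit

/-!
# P064, job PP4: the copies of `H` form a family that cannot be covered cheaply
-/

namespace Vale.Agent.Lib.P064

open Vale.Agent.KK.PP Finset

/-- The slots lying in the edge set of a graph are as many as its edges. -/
theorem card_slotFilter {n : ℕ} (G : SimpleGraph (Fin n))
    [DecidablePred (fun e : Slot n => (e : Sym2 (Fin n)) ∈ G.edgeSet)] :
    (univ.filter (fun e : Slot n => (e : Sym2 (Fin n)) ∈ G.edgeSet)).card =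
      G.edgeSet.ncard := by
  have h : (fun e : Slot n => (e : Sym2 (Fin n))) ''
      ((univ.filter (fun e : Slot n => (e : Sym2 (Fin n)) ∈ G.edgeSet) : Finset (Slot n)) :
        Set (Slot n)) = G.edgeSet := by
    ext e
    constructor
    · rintro ⟨e', he', rfl⟩
      simpa using he'
    · intro he
      exact ⟨⟨e, G.not_isDiag_of_mem_edgeSet he⟩, by simp [he], rfl⟩
  rw [← Set.ncard_coe_finset, ← Set.ncard_image_of_injective _ Subtype.val_injective]
  exact congrArg Set.ncard h

theorem copyFamily_card {n : ℕ} (H : SimpleGraph (Fin n)) :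
    ∀ S ∈ copyFamily H, S.card = H.edgeSet.ncard := by
  classical
  intro S hS
  unfold copyFamily at hS
  rw [mem_image] at hS
  obtain ⟨σ, -, rfl⟩ := hS
  unfold copyEdges
  rw [card_slotFilter, SimpleGraph.edgeSet_map]
  exact Set.ncard_image_of_injective _ σ.toEmbedding.sym2Map.injective

theorem graphOf_edgeSet_ncard {n : ℕ} (T : Finset (Slot n)) :
    (graphOf T).edgeSet.ncard = T.card := by
  unfold graphOf
  rw [SimpleGraph.edgeSet_fromEdgeSet]
  have h : ((fun e : Slot n => (e : Sym2 (Fin n))) '' (T : Set (Slot n))) \ Sym2.diagSet =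
      (fun e : Slot n => (e : Sym2 (Fin n))) '' (T : Set (Slot n)) := by
    ext e
    simp only [Set.mem_sdiff, Set.mem_image, Sym2.mem_diagSet, and_iff_left_iff_imp]
    rintro ⟨e', -, rfl⟩
    exact e'.2
  rw [h, Set.ncard_image_of_injective _ Subtype.val_injective, Set.ncard_coe_finset]

theorem graphOf_adj {n : ℕ} (T : Finset (Slot n)) (u v : Fin n) :
    (graphOf T).Adj u v ↔ ∃ e ∈ T, (e : Sym2 (Fin n)) = s(u, v) := by
  unfold graphOf
  rw [SimpleGraph.fromEdgeSet_adj]
  constructor
  · rintro ⟨⟨e, he, h⟩, -⟩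
    exact ⟨e, he, h⟩
  · rintro ⟨e, he, h⟩
    refine ⟨⟨e, he, h⟩, ?_⟩
    intro huv
    apply e.2
    rw [h, huv]
    exact Sym2.mk_isDiag_iff.2 rfl

/-- If `T` lies in the edge set of the image of `H` under `σ`, then `σ⁻¹` maps the graph of `T`
into `H`. -/
theorem adj_symm_of_subset {n : ℕ} (H : SimpleGraph (Fin n)) (T : Finset (Slot n))
    (σ : Equiv.Perm (Fin n)) (h : T ⊆ copyEdges H σ) (u v : Fin n)
    (huv : (graphOf T).Adj u v) : H.Adj (σ.symm u) (σ.symm v) := by
  classical
  rw [graphOf_adj] at huv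
  obtain ⟨e, he, hev⟩ := huv
  have h1 := h he
  unfold copyEdges at h1
  rw [mem_filter] at h1
  have h2 : s(u, v) ∈ (H.map σ.toEmbedding).edgeSet := by
    rw [← hev]; exact h1.2
  rw [SimpleGraph.mem_edgeSet, SimpleGraph.map_adj] at h2
  obtain ⟨u', v', hadj, hu, hv⟩ := h2
  have hu' : σ.symm u = u' := by
    rw [← hu]; exact σ.symm_apply_apply u'
  have hv' : σ.symm v = v' := by
    rw [← hv]; exact σ.symm_apply_apply v'
  rw [hu', hv']
  exact hadj

/-- The number of permutations `σ` such that the image of `H` under `σ` contains `T` is at most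
the number of labelled copies of the graph of `T` in `H`. -/
theorem card_perm_le {n : ℕ} (H : SimpleGraph (Fin n)) (T : Finset (Slot n))
    [DecidablePred (fun σ : Equiv.Perm (Fin n) => T ⊆ copyEdges H σ)] :
    (univ.filter (fun σ : Equiv.Perm (Fin n) => T ⊆ copyEdges H σ)).card ≤
      H.labelledCopyCount (graphOf T) := by
  classical
  rw [Vale.Agent.KK.labelledCopyCount_eq_natCard]
  let Φ : {σ : Equiv.Perm (Fin n) // T ⊆ copyEdges H σ} → SimpleGraph.Copy (graphOf T) H :=
    fun σ => ⟨⟨fun u => σ.1.symm u, fun {u v} huv => adj_symm_of_subset H T σ.1 σ.2 u v huv⟩,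
      σ.1.symm.injective⟩
  have hΦ : Function.Injective Φ := by
    rintro ⟨σ, hσ⟩ ⟨τ, hτ⟩ h
    apply Subtype.ext
    have h1 : ∀ u, σ.symm u = τ.symm u := by
      intro u
      have := congrArg (fun c : SimpleGraph.Copy (graphOf T) H => c u) h
      exact this
    have h2 : σ.symm = τ.symm := Equiv.ext h1
    have h3 := congrArg Equiv.symm h2
    simpa using h3
  have h4 := Nat.card_le_card_of_injective Φ hΦ
  rw [Nat.card_eq_fintype_card, Fintype.card_subtype] at h4
  convert h4

theorem copyFamily_cover {n : ℕ} (H : SimpleGraph (Fin n)) (p₀ : ℝ) (hp₀ : 0 ≤ p₀)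
    (hlab : ∀ F : SimpleGraph (Fin n),
      (H.labelledCopyCount F : ℝ) ≤ (n.factorial : ℝ) * p₀ ^ F.edgeSet.ncard) :
    ∀ Cov : Finset (Finset (Slot n)), Covers Cov (copyFamily H) →
      1 ≤ ∑ T ∈ Cov, p₀ ^ T.card := by
  classical
  intro Cov hCov
  have hsub : (univ : Finset (Equiv.Perm (Fin n))) ⊆
      Cov.biUnion (fun T => univ.filter (fun σ : Equiv.Perm (Fin n) => T ⊆ copyEdges H σ)) := by
    intro σ _
    have hmem : copyEdges H σ ∈ copyFamily H := by
      unfold copyFamily
      exact mem_image_of_mem _ (mem_univ σ)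
    obtain ⟨T, hT, hTσ⟩ := hCov _ hmem
    rw [mem_biUnion]
    exact ⟨T, hT, by simp [hTσ]⟩
  have h1 : n.factorial ≤
      ∑ T ∈ Cov, (univ.filter (fun σ : Equiv.Perm (Fin n) => T ⊆ copyEdges H σ)).card := by
    calc n.factorial = (univ : Finset (Equiv.Perm (Fin n))).card := by
          rw [card_univ, Fintype.card_perm, Fintype.card_fin]
      _ ≤ (Cov.biUnion
            (fun T => univ.filter (fun σ : Equiv.Perm (Fin n) => T ⊆ copyEdges H σ))).card :=
          card_le_card hsub
      _ ≤ _ := card_biUnion_le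
  have h2 : ∀ T ∈ Cov,
      ((univ.filter (fun σ : Equiv.Perm (Fin n) => T ⊆ copyEdges H σ)).card : ℝ) ≤
        (n.factorial : ℝ) * p₀ ^ T.card := by
    intro T _
    have h3 : ((univ.filter (fun σ : Equiv.Perm (Fin n) => T ⊆ copyEdges H σ)).card : ℝ) ≤
        (H.labelledCopyCount (graphOf T) : ℝ) := by
      exact_mod_cast card_perm_le H T
    have h4 := hlab (graphOf T)
    rw [graphOf_edgeSet_ncard] at h4
    exact h3.trans h4
  have h5 : (n.factorial : ℝ) ≤ (n.factorial : ℝ) * ∑ T ∈ Cov, p₀ ^ T.card := by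
    calc (n.factorial : ℝ) ≤
          ((∑ T ∈ Cov,
            (univ.filter (fun σ : Equiv.Perm (Fin n) => T ⊆ copyEdges H σ)).card : ℕ) : ℝ) := by
          exact_mod_cast h1
      _ = ∑ T ∈ Cov,
            ((univ.filter (fun σ : Equiv.Perm (Fin n) => T ⊆ copyEdges H σ)).card : ℝ) := by
          push_cast; rfl
      _ ≤ ∑ T ∈ Cov, (n.factorial : ℝ) * p₀ ^ T.card := sum_le_sum h2
      _ = (n.factorial : ℝ) * ∑ T ∈ Cov, p₀ ^ T.card := by rw [mul_sum]
  have hpos : (0 : ℝ) < (n.factorial : ℝ) := by exact_mod_cast n.factorial_pos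
  by_contra hlt
  have hlt' := not_le.1 hlt
  have := mul_lt_mul_of_pos_left hlt' hpos
  linarith

end Vale.Agent.Lib.P064
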